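import Vale.Agent.P202.Base

/-!
# P202: long exact sequence of a pair, and maps of pairs

For submodules `Y ≤ X ≤ W` the sequence `H(X,Y) → H(W,Y) → H(W,X) → H(X,Y)[-1]` is exact; stability
under the differential is not needed for this.  A surjective map of pairs with matching kernels
induces an isomorphism on homology.
-/

noncomputable section

namespace Vale.Agent.P202

namespace Diff

section Maps

variable {k : Type*} {M : Type*} [CommRing k] [AddCommGroup M] [Module k M] (D : Diff k M)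

theorem mem_cycles {X Y : Submodule k M} {j : ℤ} {x : M} :
    x ∈ D.cycles X Y j ↔ x ∈ X ∧ x ∈ D.deg j ∧ D.d x ∈ Y := by
  simp [cycles, and_assoc]

theorem mem_bdries {X Y : Submodule k M} {j : ℤ} {x : M} :
    x ∈ D.bdries X Y j ↔ ∃ w, (w ∈ X ∧ w ∈ D.deg (j + 1)) ∧
      ∃ y, (y ∈ Y ∧ y ∈ D.deg j) ∧ D.d w + y = x := by
  simp [bdries, Submodule.mem_sup]

theorem mk_eq_zero_iff {X Y : Submodule k M} {j : ℤ} (x : D.cycles X Y j) :
    (Submodule.Quotient.mk x : D.H X Y j) = 0 ↔ (x : M) ∈ D.bdries X Y j := by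
  rw [Submodule.Quotient.mk_eq_zero]
  rfl

variable {Y X W : Submodule k M}

/-- The map `H(X,Y) → H(W,Y)`. -/
def inclMap (hXW : X ≤ W) (j : ℤ) : D.H X Y j →ₗ[k] D.H W Y j :=
  Submodule.mapQ _ _
    (Submodule.inclusion (fun _ hx =>
      (D.mem_cycles).mpr ⟨hXW ((D.mem_cycles).mp hx).1, ((D.mem_cycles).mp hx).2⟩))
    (fun x hx => by
      obtain ⟨w, ⟨hw, hw'⟩, y, hy, e⟩ := (D.mem_bdries).mp hx
      exact (D.mem_bdries).mpr ⟨w, ⟨hXW hw, hw'⟩, y, hy, e⟩)

/-- The map `H(W,Y) → H(W,X)`. -/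
def projMap (hYX : Y ≤ X) (j : ℤ) : D.H W Y j →ₗ[k] D.H W X j :=
  Submodule.mapQ _ _
    (Submodule.inclusion (fun _ hx =>
      (D.mem_cycles).mpr ⟨((D.mem_cycles).mp hx).1, ((D.mem_cycles).mp hx).2.1,
        hYX ((D.mem_cycles).mp hx).2.2⟩))
    (fun x hx => by
      obtain ⟨w, hw, y, ⟨hy, hy'⟩, e⟩ := (D.mem_bdries).mp hx
      exact (D.mem_bdries).mpr ⟨w, hw, y, ⟨hYX hy, hy'⟩, e⟩)

/-- The connecting map. -/
def connMap (i j : ℤ) (hij : i = j + 1) : D.H W X i →ₗ[k] D.H X Y j :=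
  Submodule.mapQ _ _
    (LinearMap.codRestrict (D.cycles X Y j) (D.d.comp (D.cycles W X i).subtype) (fun x => by
      obtain ⟨-, hd, hX⟩ := (D.mem_cycles).mp x.2
      refine (D.mem_cycles).mpr ⟨hX, ?_, ?_⟩
      · have := D.d_deg i x hd
        rwa [show i - 1 = j by omega] at this
      · show D.d (D.d x) ∈ Y
        rw [D.d_d]; exact Y.zero_mem))
    (fun x hx => by
      obtain ⟨w, -, y, ⟨hy, hy'⟩, e⟩ := (D.mem_bdries).mp hx
      refine (D.mem_bdries).mpr ⟨y, ⟨hy, hij ▸ hy'⟩, 0, ⟨Y.zero_mem, Submodule.zero_mem _⟩, ?_⟩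
      show D.d y + 0 = D.d (x : M)
      have e' : D.d w + y = (x : M) := e
      rw [← e', map_add, D.d_d, zero_add, add_zero])

theorem inclMap_mk (hXW : X ≤ W) (j : ℤ) (x : D.cycles X Y j) :
    D.inclMap hXW j (Submodule.Quotient.mk x) = Submodule.Quotient.mk ⟨x.1,
      (D.mem_cycles).mpr ⟨hXW ((D.mem_cycles).mp x.2).1, ((D.mem_cycles).mp x.2).2⟩⟩ := rfl

theorem projMap_mk (hYX : Y ≤ X) (j : ℤ) (x : D.cycles W Y j) :
    D.projMap hYX j (Submodule.Quotient.mk x) = Submodule.Quotient.mk ⟨x.1,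
      (D.mem_cycles).mpr ⟨((D.mem_cycles).mp x.2).1, ((D.mem_cycles).mp x.2).2.1,
        hYX ((D.mem_cycles).mp x.2).2.2⟩⟩ := rfl

/-- Exactness at `H(X,Y)`. -/
theorem exact_left (hYX : Y ≤ X) (hXW : X ≤ W) (i j : ℤ) (hij : i = j + 1) :
    LinearMap.range (D.connMap (W := W) (X := X) (Y := Y) i j hij) =
      LinearMap.ker (D.inclMap hXW j) := by
  ext ξ
  obtain ⟨x, rfl⟩ := Submodule.Quotient.mk_surjective _ ξ
  rw [LinearMap.mem_ker, inclMap_mk, mk_eq_zero_iff, mem_bdries]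
  constructor
  · rintro ⟨η, hη⟩
    obtain ⟨w, rfl⟩ := Submodule.Quotient.mk_surjective _ η
    obtain ⟨hwW, hwd, -⟩ := (D.mem_cycles).mp w.2
    have h := (Submodule.Quotient.eq _).mp hη
    obtain ⟨v, ⟨hv, hv'⟩, y, hy, e⟩ := (D.mem_bdries).mp h
    refine ⟨(w : M) - v, ⟨W.sub_mem hwW (hXW hv), Submodule.sub_mem _ (hij ▸ hwd) hv'⟩, -y,
      ⟨Y.neg_mem hy.1, Submodule.neg_mem _ hy.2⟩, ?_⟩
    have e' : D.d v + y = D.d (w : M) - (x : M) := e
    show D.d ((w : M) - v) + -y = (x : M)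
    have hy' : y = D.d (w : M) - (x : M) - D.d v := by rw [← e']; abel
    rw [map_sub, hy']; abel
  · rintro ⟨w, ⟨hw, hw'⟩, y, hy, e⟩
    have e' : D.d w + y = (x : M) := e
    obtain ⟨hxX, -, -⟩ := (D.mem_cycles).mp x.2
    refine ⟨Submodule.Quotient.mk ⟨w, (D.mem_cycles).mpr ⟨hw, hij ▸ hw', ?_⟩⟩, ?_⟩
    · have : D.d w = (x : M) - y := by rw [← e']; abel
      rw [this]; exact X.sub_mem hxX (hYX hy.1)
    · refine (Submodule.Quotient.eq _).mpr ((D.mem_bdries).mpr ⟨0, ⟨X.zero_mem,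
        Submodule.zero_mem _⟩, -y, ⟨Y.neg_mem hy.1, Submodule.neg_mem _ hy.2⟩, ?_⟩)
      show D.d 0 + -y = D.d w - (x : M)
      rw [map_zero, zero_add, ← e']; abel

/-- Exactness at `H(W,Y)`. -/
theorem exact_mid (hYX : Y ≤ X) (hXW : X ≤ W) (j : ℤ) :
    LinearMap.range (D.inclMap (Y := Y) hXW j) = LinearMap.ker (D.projMap hYX j) := by
  ext ξ
  obtain ⟨x, rfl⟩ := Submodule.Quotient.mk_surjective _ ξ
  rw [LinearMap.mem_ker, projMap_mk, mk_eq_zero_iff, mem_bdries]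
  obtain ⟨hxW, hxd, hxY⟩ := (D.mem_cycles).mp x.2
  constructor
  · rintro ⟨η, hη⟩
    obtain ⟨z, rfl⟩ := Submodule.Quotient.mk_surjective _ η
    obtain ⟨hzX, hzd, -⟩ := (D.mem_cycles).mp z.2
    rw [inclMap_mk] at hη
    have h := (Submodule.Quotient.eq _).mp hη
    obtain ⟨w, ⟨hw, hw'⟩, y, hy, e⟩ := (D.mem_bdries).mp h
    have e' : D.d w + y = (z : M) - (x : M) := e
    refine ⟨-w, ⟨W.neg_mem hw, Submodule.neg_mem _ hw'⟩, (z : M) - y,
      ⟨X.sub_mem hzX (hYX hy.1), Submodule.sub_mem _ hzd hy.2⟩, ?_⟩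
    show D.d (-w) + ((z : M) - y) = (x : M)
    have hz : (z : M) = D.d w + y + (x : M) := by rw [e']; abel
    rw [map_neg, hz]; abel
  · rintro ⟨w, ⟨hw, hw'⟩, x', ⟨hx'X, hx'd⟩, e⟩
    have e' : D.d w + x' = (x : M) := e
    refine ⟨Submodule.Quotient.mk ⟨x', (D.mem_cycles).mpr ⟨hx'X, hx'd, ?_⟩⟩, ?_⟩
    · have : D.d x' = D.d (x : M) := by rw [← e', map_add, D.d_d, zero_add]
      rw [this]; exact hxY
    · refine (Submodule.Quotient.eq _).mpr ((D.mem_bdries).mpr ⟨-w, ⟨W.neg_mem hw,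
        Submodule.neg_mem _ hw'⟩, 0, ⟨Y.zero_mem, Submodule.zero_mem _⟩, ?_⟩)
      show D.d (-w) + 0 = x' - (x : M)
      rw [map_neg, ← e']; abel

/-- Exactness at `H(W,X)`. -/
theorem exact_right (hYX : Y ≤ X) (hXW : X ≤ W) (i j : ℤ) (hij : i = j + 1) :
    LinearMap.range (D.projMap (W := W) hYX i) =
      LinearMap.ker (D.connMap (W := W) (X := X) (Y := Y) i j hij) := by
  ext ξ
  obtain ⟨x, rfl⟩ := Submodule.Quotient.mk_surjective _ ξ
  obtain ⟨hxW, hxd, hxX⟩ := (D.mem_cycles).mp x.2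
  have hk : D.connMap (W := W) (X := X) (Y := Y) i j hij (Submodule.Quotient.mk x) = 0 ↔
      D.d (x : M) ∈ D.bdries X Y j := D.mk_eq_zero_iff _
  rw [LinearMap.mem_ker, hk, mem_bdries]
  constructor
  · rintro ⟨η, hη⟩
    obtain ⟨z, rfl⟩ := Submodule.Quotient.mk_surjective _ η
    obtain ⟨-, hzd, hzY⟩ := (D.mem_cycles).mp z.2
    rw [projMap_mk] at hη
    have h := (Submodule.Quotient.eq _).mp hη
    obtain ⟨w, hw, x', ⟨hx'X, hx'd⟩, e⟩ := (D.mem_bdries).mp h
    have e' : D.d w + x' = (z : M) - (x : M) := e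
    have hd' : D.d x' = D.d (z : M) - D.d (x : M) := by
      rw [← map_sub, ← e', map_add, D.d_d, zero_add]
    refine ⟨-x', ⟨X.neg_mem hx'X, Submodule.neg_mem _ (hij ▸ hx'd)⟩, D.d (z : M),
      ⟨hzY, ?_⟩, ?_⟩
    · have := D.d_deg i _ hzd
      rwa [show i - 1 = j by omega] at this
    · rw [map_neg, hd']; abel
  · rintro ⟨x', ⟨hx'X, hx'd⟩, y, ⟨hy, -⟩, e⟩
    have e' : D.d x' + y = D.d (x : M) := e
    refine ⟨Submodule.Quotient.mk ⟨(x : M) - x', (D.mem_cycles).mpr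
      ⟨W.sub_mem hxW (hXW hx'X), Submodule.sub_mem _ hxd (hij ▸ hx'd), ?_⟩⟩, ?_⟩
    · rw [map_sub, ← e', add_sub_cancel_left]; exact hy
    · refine (Submodule.Quotient.eq _).mpr ((D.mem_bdries).mpr ⟨0, ⟨W.zero_mem,
        Submodule.zero_mem _⟩, -x', ⟨X.neg_mem hx'X, Submodule.neg_mem _ (hij ▸ hx'd)⟩, ?_⟩)
      show D.d 0 + -x' = (x : M) - x' - (x : M)
      rw [map_zero]; abel

end Maps

section Dim

variable {k : Type*} {M : Type*} [Field k] [AddCommGroup M] [Module k M] (D : Diff k M)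
variable {Y X W : Submodule k M}

/-- An exact sequence with finite ends has a finite middle. -/
theorem finite_mid {A B C : Type*} [AddCommGroup A] [Module k A] [AddCommGroup B] [Module k B]
    [AddCommGroup C] [Module k C] (f : A →ₗ[k] B) (g : B →ₗ[k] C)
    (h : LinearMap.range f = LinearMap.ker g) [Module.Finite k A] [Module.Finite k C] :
    Module.Finite k B := by
  haveI : Module.Finite k (LinearMap.ker g) := h ▸ Module.Finite.range f
  haveI : Module.Finite k (B ⧸ LinearMap.ker g) := Module.Finite.equiv g.quotKerEquivRange.symm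
  exact Module.Finite.of_submodule_quotient (LinearMap.ker g)

/-- An exact sequence with zero ends has a zero middle. -/
theorem subsingleton_mid {A B C : Type*} [AddCommGroup A] [Module k A] [AddCommGroup B]
    [Module k B] [AddCommGroup C] [Module k C] (f : A →ₗ[k] B) (g : B →ₗ[k] C)
    (h : LinearMap.range f = LinearMap.ker g) [Subsingleton A] [Subsingleton C] :
    Subsingleton B := by
  refine ⟨fun b b' => ?_⟩
  have hz : ∀ b : B, b = 0 := fun b => by
    have : b ∈ LinearMap.range f := h ▸ LinearMap.mem_ker.mpr (Subsingleton.elim _ _)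
    obtain ⟨a, rfl⟩ := this
    rw [Subsingleton.elim a 0, map_zero]
  rw [hz b, hz b']

/-- Dimension of the middle of an exact pair of maps. -/
theorem finrank_mid {A B C : Type*} [AddCommGroup A] [Module k A] [AddCommGroup B] [Module k B]
    [AddCommGroup C] [Module k C] (f : A →ₗ[k] B) (g : B →ₗ[k] C)
    (h : LinearMap.range f = LinearMap.ker g) [Module.Finite k B] :
    Module.finrank k B =
      Module.finrank k (LinearMap.range f) + Module.finrank k (LinearMap.range g) := by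
  rw [h, add_comm]
  exact (LinearMap.finrank_range_add_finrank_ker g).symm

theorem fin'_mid (hYX : Y ≤ X) (hXW : X ≤ W) (h1 : D.Fin' X Y) (h2 : D.Fin' W X) :
    D.Fin' W Y := by
  obtain ⟨N1, b1⟩ := h1.bounded
  obtain ⟨N2, b2⟩ := h2.bounded
  refine ⟨fun j => ?_, max N1 N2, fun j hj => ?_⟩
  · haveI := h1.finite j
    haveI := h2.finite j
    exact finite_mid _ _ (D.exact_mid hYX hXW j)
  · haveI := b1 j (by omega)
    haveI := b2 j (by omega)
    exact subsingleton_mid _ _ (D.exact_mid hYX hXW j)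

theorem fin'_left (hYX : Y ≤ X) (hXW : X ≤ W) (h1 : D.Fin' W Y) (h2 : D.Fin' W X) :
    D.Fin' X Y := by
  obtain ⟨N1, b1⟩ := h1.bounded
  obtain ⟨N2, b2⟩ := h2.bounded
  refine ⟨fun j => ?_, max N1 N2 + 1, fun j hj => ?_⟩
  · haveI := h1.finite j
    haveI := h2.finite (j + 1)
    exact finite_mid _ _ (D.exact_left hYX hXW (j + 1) j rfl)
  · haveI := b1 j (by omega)
    haveI := b2 (j + 1) (by omega)
    exact subsingleton_mid _ _ (D.exact_left hYX hXW (j + 1) j rfl)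

theorem fin'_right (hYX : Y ≤ X) (hXW : X ≤ W) (h1 : D.Fin' W Y) (h2 : D.Fin' X Y) :
    D.Fin' W X := by
  obtain ⟨N1, b1⟩ := h1.bounded
  obtain ⟨N2, b2⟩ := h2.bounded
  refine ⟨fun j => ?_, max N1 N2 + 1, fun j hj => ?_⟩
  · haveI := h1.finite j
    haveI := h2.finite (j - 1)
    exact finite_mid _ _ (D.exact_right hYX hXW j (j - 1) (by ring))
  · haveI := b1 j (by omega)
    haveI := b2 (j - 1) (by omega)
    exact subsingleton_mid _ _ (D.exact_right hYX hXW j (j - 1) (by ring))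

/-- The Euler characteristic over any sufficiently wide range. -/
theorem chi_eq_sum_Icc {X Y : Submodule k M} (N : ℕ)
    (hN : ∀ j : ℤ, (j < -(N : ℤ) ∨ (N : ℤ) < j) → Subsingleton (D.H X Y j)) :
    D.chi X Y = ∑ j ∈ Finset.Icc (-(N : ℤ)) N, (j.negOnePow : ℤ) * (D.betti X Y j : ℤ) := by
  refine finsum_eq_sum_of_support_subset _ fun j hj => ?_
  rw [Finset.coe_Icc, Set.mem_Icc]
  by_contra hc
  haveI := hN j (by omega)
  exact hj (by simp [betti, Module.finrank_zero_of_subsingleton])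

/-- Additivity of the Euler characteristic. -/
theorem chi_add (hYX : Y ≤ X) (hXW : X ≤ W) (h1 : D.Fin' X Y) (h2 : D.Fin' W X) :
    D.chi W Y = D.chi X Y + D.chi W X := by
  have h3 := D.fin'_mid hYX hXW h1 h2
  obtain ⟨N1, b1⟩ := h1.bounded
  obtain ⟨N2, b2⟩ := h2.bounded
  obtain ⟨N3, b3⟩ := h3.bounded
  set N := max (max N1 N2) N3 + 1 with hN
  rw [D.chi_eq_sum_Icc N (fun j hj => b3 j (by omega)),
    D.chi_eq_sum_Icc N (fun j hj => b1 j (by omega)),
    D.chi_eq_sum_Icc N (fun j hj => b2 j (by omega)), ← Finset.sum_add_distrib]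
  set c : ℤ → ℤ := fun j => (Module.finrank k
    (LinearMap.range (D.connMap (W := W) (X := X) (Y := Y) (j + 1) j rfl)) : ℤ) with hc
  have hbetti : ∀ j : ℤ, (D.betti X Y j : ℤ) + D.betti W X j
      = D.betti W Y j + (c j + c (j - 1)) := by
    intro j
    haveI := h1.finite j
    haveI := h2.finite j
    haveI := h3.finite j
    have e1 := finrank_mid _ _ (D.exact_left hYX hXW (j + 1) j rfl)
    have e2 := finrank_mid _ _ (D.exact_mid hYX hXW j)
    have e3 := finrank_mid _ _ (D.exact_right hYX hXW j (j - 1) (by ring))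
    have ecast : ∀ (i i' : ℤ) (h : i = (j - 1) + 1), i' = i → ∀ h' : i' = (j - 1) + 1,
        Module.finrank k (LinearMap.range (D.connMap (W := W) (X := X) (Y := Y) i' (j - 1) h'))
          = Module.finrank k (LinearMap.range (D.connMap (W := W) (X := X) (Y := Y) i (j - 1) h))
        := by
      intro i i' h hi h'
      subst hi
      rfl
    have e4 := ecast (j - 1 + 1) j rfl (by ring) (by ring)
    simp only [betti, hc]
    rw [e4] at e3
    exact_mod_cast (show _ = _ by omega)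
  have tele : ∀ n : ℕ, ∀ a : ℤ,
      ∑ j ∈ Finset.Icc a (a + n), (j.negOnePow : ℤ) * (c j + c (j - 1))
        = ((a + n).negOnePow : ℤ) * c (a + n) + (a.negOnePow : ℤ) * c (a - 1) := by
    intro n a
    induction n with
    | zero => simp [mul_add]
    | succ n ih =>
      rw [show (a + ((n + 1 : ℕ) : ℤ)) = a + n + 1 by push_cast; ring,
        ← Finset.insert_Icc_right_eq_Icc_add_one (by omega), Finset.sum_insert (by simp), ih,
        add_sub_cancel_right, Int.negOnePow_succ]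
      push_cast
      ring
  have cz : ∀ j : ℤ, (j < -(N : ℤ) + 1 ∨ (N : ℤ) - 1 < j) → c j = 0 := by
    intro j hj
    haveI := b1 j (by omega)
    simp [hc, Module.finrank_zero_of_subsingleton]
  have := tele (2 * N) (-(N : ℤ))
  rw [show -(N : ℤ) + ((2 * N : ℕ) : ℤ) = (N : ℤ) by push_cast; ring, cz _ (Or.inr (by omega)),
    cz _ (Or.inl (by omega)), mul_zero, mul_zero, add_zero] at this
  rw [← add_zero (∑ j ∈ Finset.Icc (-(N : ℤ)) N, (j.negOnePow : ℤ) * (D.betti W Y j : ℤ)), ← this,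
    ← Finset.sum_add_distrib]
  refine Finset.sum_congr rfl fun j _ => ?_
  rw [← mul_add, ← mul_add, hbetti j]

end Dim

section PairMap

variable {k : Type*} {M M' : Type*} [CommRing k] [AddCommGroup M] [Module k M] [AddCommGroup M']
  [Module k M'] (D : Diff k M) (D' : Diff k M')

/-- A map of pairs which is surjective on pieces, with `Y` the full preimage of `Y'` in `X`. -/
structure PairMap (φ : M →ₗ[k] M') (X Y : Submodule k M) (X' Y' : Submodule k M') : Prop where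
  comm : ∀ x, φ (D.d x) = D'.d (φ x)
  deg : ∀ j x, x ∈ D.deg j → φ x ∈ D'.deg j
  maps : ∀ x ∈ X, φ x ∈ X'
  surj : ∀ j, ∀ x' ∈ X', x' ∈ D'.deg j → ∃ x ∈ X, x ∈ D.deg j ∧ φ x = x'
  ker : ∀ x ∈ X, φ x ∈ Y' ↔ x ∈ Y
  le : Y ≤ X
  le' : Y' ≤ X'
  stable : D.Stable X

variable {D D'} {φ : M →ₗ[k] M'} {X Y : Submodule k M} {X' Y' : Submodule k M'}

/-- The map induced on homology. -/
def PairMap.map (h : PairMap D D' φ X Y X' Y') (j : ℤ) : D.H X Y j →ₗ[k] D'.H X' Y' j :=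
  Submodule.mapQ _ _
    (LinearMap.codRestrict (D'.cycles X' Y' j) (φ.comp (D.cycles X Y j).subtype) (fun x => by
      obtain ⟨h1, h2, h3⟩ := (D.mem_cycles).mp x.2
      refine (D'.mem_cycles).mpr ⟨h.maps _ h1, h.deg _ _ h2, ?_⟩
      show D'.d (φ (x : M)) ∈ Y'
      rw [← h.comm]
      exact (h.ker _ (h.le h3)).mpr h3))
    (fun x hx => by
      obtain ⟨w, ⟨hw, hw'⟩, y, ⟨hy, hy'⟩, e⟩ := (D.mem_bdries).mp hx
      refine (D'.mem_bdries).mpr ⟨φ w, ⟨h.maps _ hw, h.deg _ _ hw'⟩, φ y,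
        ⟨(h.ker _ (h.le hy)).mpr hy, h.deg _ _ hy'⟩, ?_⟩
      show D'.d (φ w) + φ y = φ (x : M)
      rw [← h.comm, ← map_add]
      exact congrArg φ e)

theorem PairMap.bijective (h : PairMap D D' φ X Y X' Y') (j : ℤ) :
    Function.Bijective (h.map j) := by
  constructor
  · rw [injective_iff_map_eq_zero]
    intro ξ hξ
    obtain ⟨x, rfl⟩ := Submodule.Quotient.mk_surjective _ ξ
    have hξ' : φ (x : M) ∈ D'.bdries X' Y' j := (D'.mk_eq_zero_iff _).mp hξ
    obtain ⟨h1, h2, -⟩ := (D.mem_cycles).mp x.2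
    obtain ⟨w', ⟨hw, hw'⟩, y', ⟨hy, -⟩, e⟩ := (D'.mem_bdries).mp hξ'
    obtain ⟨w, w1, w2, rfl⟩ := h.surj _ w' hw hw'
    refine (D.mk_eq_zero_iff _).mpr ((D.mem_bdries).mpr
      ⟨w, ⟨w1, w2⟩, (x : M) - D.d w, ⟨?_, ?_⟩, by abel⟩)
    · refine (h.ker _ (X.sub_mem h1 (h.stable _ w1))).mp ?_
      rw [map_sub, h.comm, ← e, add_sub_cancel_left]
      exact hy
    · refine Submodule.sub_mem _ h2 ?_
      have := D.d_deg _ _ w2
      rwa [add_sub_cancel_right] at this
  · intro ξ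
    obtain ⟨x', rfl⟩ := Submodule.Quotient.mk_surjective _ ξ
    obtain ⟨h1, h2, h3⟩ := (D'.mem_cycles).mp x'.2
    obtain ⟨x, x1, x2, x3⟩ := h.surj _ _ h1 h2
    refine ⟨Submodule.Quotient.mk ⟨x, (D.mem_cycles).mpr ⟨x1, x2,
      (h.ker _ (h.stable _ x1)).mp (by rw [h.comm, x3]; exact h3)⟩⟩, ?_⟩
    exact congrArg Submodule.Quotient.mk (Subtype.ext x3)

/-- The isomorphism induced on homology. -/
def PairMap.equiv (h : PairMap D D' φ X Y X' Y') (j : ℤ) : D.H X Y j ≃ₗ[k] D'.H X' Y' j :=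
  LinearEquiv.ofBijective (h.map j) (h.bijective j)

theorem PairMap.betti_eq (h : PairMap D D' φ X Y X' Y') (j : ℤ) :
    D'.betti X' Y' j = D.betti X Y j :=
  (h.equiv j).finrank_eq.symm

theorem PairMap.chi_eq (h : PairMap D D' φ X Y X' Y') : D'.chi X' Y' = D.chi X Y := by
  simp only [Diff.chi, h.betti_eq]

theorem PairMap.fin'_iff (h : PairMap D D' φ X Y X' Y') : D'.Fin' X' Y' ↔ D.Fin' X Y := by
  constructor
  · intro hf
    refine ⟨fun j => ?_, ?_⟩
    · haveI := hf.finite j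
      exact Module.Finite.equiv (h.equiv j).symm
    · obtain ⟨N, hN⟩ := hf.bounded
      exact ⟨N, fun j hj => haveI := hN j hj; (h.equiv j).toEquiv.subsingleton⟩
  · intro hf
    refine ⟨fun j => ?_, ?_⟩
    · haveI := hf.finite j
      exact Module.Finite.equiv (h.equiv j)
    · obtain ⟨N, hN⟩ := hf.bounded
      exact ⟨N, fun j hj => haveI := hN j hj; (h.equiv j).symm.toEquiv.subsingleton⟩

end PairMap

end Diff

end Vale.Agent.P202
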