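import Vale.Agent.P202.HomAlg.Pair

/-!
# P202: changing the coefficient module of a finite free complex
-/

noncomputable section

namespace Vale.Agent.P202

namespace FreeCx

section Basic

variable {A : Type*} [CommRing A] (G : FreeCx A) (k : Type*) [CommRing k] [Algebra k A]
variable (M : Type*) [AddCommGroup M] [Module A M] [Module k M] [IsScalarTower k A M]

theorem diff_d_apply (x : G.ι → M) : (G.diff M k).d x = G.dA M x := rfl

theorem mem_diff_deg (j : ℤ) (x : G.ι → M) :
    x ∈ (G.diff M k).deg j ↔ ∀ g, (G.pos g : ℤ) ≠ j → x g = 0 := Iff.rfl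

theorem fin'_iff_finiteHom : (G.diff M k).Fin' ⊤ ⊥ ↔ G.FiniteHom M k := by
  refine ⟨fun h => h.finite, fun h => ⟨h, Finset.univ.sup G.pos, fun j hj => ?_⟩⟩
  suffices hc : Subsingleton ((G.diff M k).cycles ⊤ ⊥ j) by
    exact (Submodule.Quotient.mk_surjective _).subsingleton
  refine ⟨fun f f' => Subtype.ext (funext fun g => ?_)⟩
  have h1 := ((G.diff M k).mem_cycles.mp f.2).2.1
  have h2 := ((G.diff M k).mem_cycles.mp f'.2).2.1
  have := Finset.le_sup (f := G.pos) (Finset.mem_univ g)
  rw [h1 g (by omega), h2 g (by omega)]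

variable {M} {N : Type*} [AddCommGroup N] [Module A N] [Module k N] [IsScalarTower k A N]

/-- A map of coefficient modules, applied coordinatewise. -/
def coef (f : M →ₗ[A] N) : (G.ι → M) →ₗ[k] (G.ι → N) where
  toFun x g := f (x g)
  map_add' x y := by funext g; simp
  map_smul' c x := by funext g; simp

theorem coef_apply (f : M →ₗ[A] N) (x : G.ι → M) (g : G.ι) : G.coef k f x g = f (x g) := rfl

theorem coef_d (f : M →ₗ[A] N) (x : G.ι → M) :
    G.coef k f ((G.diff M k).d x) = (G.diff N k).d (G.coef k f x) := by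
  funext h
  simp [coef_apply, diff_d_apply, dA_apply]

theorem coef_deg (f : M →ₗ[A] N) (j : ℤ) (x : G.ι → M) (hx : x ∈ (G.diff M k).deg j) :
    G.coef k f x ∈ (G.diff N k).deg j := fun g hg => by
  rw [coef_apply, hx g hg, map_zero]

/-- Coordinatewise image pair. -/
theorem pairMap_inj {f : M →ₗ[A] N} (hf : Function.Injective f) :
    Diff.PairMap (G.diff M k) (G.diff N k) (G.coef k f) ⊤ ⊥
      (LinearMap.range (G.coef k f)) ⊥ where
  comm := G.coef_d k f
  deg := G.coef_deg k f
  maps x _ := ⟨x, rfl⟩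
  surj j x' hx' hd := by
    obtain ⟨x, rfl⟩ := hx'
    refine ⟨x, trivial, fun g hg => hf ?_, rfl⟩
    rw [map_zero]
    exact hd g hg
  ker x _ := by
    rw [Submodule.mem_bot, Submodule.mem_bot]
    refine ⟨fun h => funext fun g => hf ?_, fun h => by rw [h, map_zero]⟩
    simpa [coef_apply] using congrFun h g
  le := bot_le
  le' := bot_le
  stable _ _ := trivial

/-- Coordinatewise quotient pair. -/
theorem pairMap_surj {f : M →ₗ[A] N} (hf : Function.Surjective f) :
    Diff.PairMap (G.diff M k) (G.diff N k) (G.coef k f) ⊤ (LinearMap.ker (G.coef k f)) ⊤ ⊥ where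
  comm := G.coef_d k f
  deg := G.coef_deg k f
  maps _ _ := trivial
  surj j x' _ hd := by
    classical
    choose p hp using hf
    refine ⟨fun g => if (G.pos g : ℤ) = j then p (x' g) else 0, trivial, fun g hg => if_neg hg,
      funext fun g => ?_⟩
    rw [coef_apply]
    split_ifs with h
    · exact hp _
    · rw [map_zero, hd g h]
  ker x _ := by rw [Submodule.mem_bot, LinearMap.mem_ker]
  le := le_top
  le' := le_top
  stable _ _ := trivial

theorem finiteHom_congr (e : M ≃ₗ[A] N) : G.FiniteHom M k ↔ G.FiniteHom N k := by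
  have h := G.pairMap_inj k (f := e.toLinearMap) e.injective
  have hr : LinearMap.range (G.coef k e.toLinearMap) = ⊤ :=
    LinearMap.range_eq_top.mpr fun y => ⟨fun g => e.symm (y g), funext fun g => by simp [coef_apply]⟩
  rw [← fin'_iff_finiteHom, ← fin'_iff_finiteHom, ← h.fin'_iff, hr]

theorem chi_congr (e : M ≃ₗ[A] N) : G.chi M k = G.chi N k := by
  have h := G.pairMap_inj k (f := e.toLinearMap) e.injective
  have hr : LinearMap.range (G.coef k e.toLinearMap) = ⊤ :=
    LinearMap.range_eq_top.mpr fun y => ⟨fun g => e.symm (y g), funext fun g => by simp [coef_apply]⟩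
  have := h.chi_eq
  rw [hr] at this
  exact this.symm

end Basic

section Additive

variable {A : Type*} [CommRing A] (G : FreeCx A) {k : Type*} [Field k] [Algebra k A]
variable {M₁ M₂ M₃ : Type*} [AddCommGroup M₁] [Module A M₁] [Module k M₁] [IsScalarTower k A M₁]
  [AddCommGroup M₂] [Module A M₂] [Module k M₂] [IsScalarTower k A M₂]
  [AddCommGroup M₃] [Module A M₃] [Module k M₃] [IsScalarTower k A M₃]
variable {f : M₁ →ₗ[A] M₂} {g : M₂ →ₗ[A] M₃} (hf : Function.Injective f)
  (hg : Function.Surjective g) (hfg : Function.Exact f g)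

include hfg in
theorem range_coef_eq_ker : LinearMap.range (G.coef k f) = LinearMap.ker (G.coef k g) := by
  ext x
  constructor
  · rintro ⟨y, rfl⟩
    exact funext fun i => hfg.apply_apply_eq_zero (y i)
  · intro hx
    choose y hy using fun i => (hfg (x i)).mp (congrFun hx i)
    exact ⟨y, funext hy⟩

include hf hg hfg

theorem finiteHom_middle (h1 : G.FiniteHom M₁ k) (h3 : G.FiniteHom M₃ k) : G.FiniteHom M₂ k := by
  rw [← fin'_iff_finiteHom] at h1 h3 ⊢
  refine Diff.fin'_mid _ bot_le le_top ((G.pairMap_inj k hf).fin'_iff.mpr h1) ?_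
  rw [G.range_coef_eq_ker hfg]
  exact (G.pairMap_surj k hg).fin'_iff.mp h3

theorem finiteHom_first (h2 : G.FiniteHom M₂ k) (h3 : G.FiniteHom M₃ k) : G.FiniteHom M₁ k := by
  rw [← fin'_iff_finiteHom] at h2 h3 ⊢
  refine (G.pairMap_inj k hf).fin'_iff.mp (Diff.fin'_left _ bot_le le_top h2 ?_)
  rw [G.range_coef_eq_ker hfg]
  exact (G.pairMap_surj k hg).fin'_iff.mp h3

theorem finiteHom_last (h1 : G.FiniteHom M₁ k) (h2 : G.FiniteHom M₂ k) : G.FiniteHom M₃ k := by
  rw [← fin'_iff_finiteHom] at h1 h2 ⊢
  refine (G.pairMap_surj k hg).fin'_iff.mpr ?_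
  rw [← G.range_coef_eq_ker hfg]
  exact Diff.fin'_right _ bot_le le_top h2 ((G.pairMap_inj k hf).fin'_iff.mpr h1)

theorem chi_additive (h1 : G.FiniteHom M₁ k) (h3 : G.FiniteHom M₃ k) :
    G.chi M₂ k = G.chi M₁ k + G.chi M₃ k := by
  rw [← fin'_iff_finiteHom] at h1 h3
  have e1 := (G.pairMap_inj k hf).fin'_iff.mpr h1
  have e3 := (G.pairMap_surj k hg).fin'_iff.mp h3
  have c1 := (G.pairMap_inj k hf).chi_eq
  have c3 := (G.pairMap_surj k hg).chi_eq
  rw [← G.range_coef_eq_ker hfg] at e3 c3
  have := Diff.chi_add (G.diff M₂ k) bot_le le_top e1 e3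
  rw [FreeCx.chi, FreeCx.chi, FreeCx.chi, this, c1, c3]

end Additive

section Free

variable {A : Type*} [CommRing A] (G : FreeCx A) {k : Type*} [Field k] [Algebra k A]
variable {M : Type*} [AddCommGroup M] [Module A M] [Module k M] [IsScalarTower k A M]

/-- Finitely many copies of a module. -/
theorem chi_pi (h : G.FiniteHom M k) :
    ∀ m : ℕ, G.FiniteHom (Fin m → M) k ∧ G.chi (Fin m → M) k = (m : ℤ) * G.chi M k := by
  intro m
  induction m with
  | zero =>
    haveI : ∀ j, Subsingleton ((G.diff (Fin 0 → M) k).H ⊤ ⊥ j) := fun j =>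
      (Submodule.Quotient.mk_surjective _).subsingleton
    refine ⟨fun j => inferInstance, ?_⟩
    simp [FreeCx.chi, Diff.chi, Diff.betti, Module.finrank_zero_of_subsingleton]
  | succ m ih =>
    let f : M →ₗ[A] (Fin (m + 1) → M) := LinearMap.single A (fun _ => M) 0
    let g : (Fin (m + 1) → M) →ₗ[A] (Fin m → M) := LinearMap.funLeft A M Fin.succ
    have hf : Function.Injective f := Pi.single_injective (M := fun _ => M) 0
    have hg : Function.Surjective g := fun y => ⟨Fin.cons 0 y, by
      funext i; simp [g, LinearMap.funLeft_apply]⟩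
    have hfg : Function.Exact f g := fun y => by
      constructor
      · intro hy
        refine ⟨y 0, funext fun i => ?_⟩
        refine Fin.cases ?_ (fun i => ?_) i
        · simp [f]
        · have := congrFun hy i
          simp [g, LinearMap.funLeft_apply] at this
          simp [f, this]
      · rintro ⟨x, rfl⟩
        funext i
        simp [f, g, LinearMap.funLeft_apply]
    refine ⟨G.finiteHom_middle hf hg hfg h ih.1, ?_⟩
    rw [G.chi_additive hf hg hfg h ih.1, ih.2]
    push_cast
    ring

end Free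

theorem diff_ext {k M : Type*} [CommRing k] [AddCommGroup M] [Module k M] (D D' : Diff k M)
    (hd : D.d = D'.d) (hdeg : D.deg = D'.deg) : D = D' := by
  cases D
  cases D'
  cases hd
  cases hdeg
  rfl

section ChangeRing

variable {A B : Type*} [CommRing A] [CommRing B] (G : FreeCx A) (φ : A →+* B) {k : Type*}
  [CommRing k] [Algebra k A] [Algebra k B] {N : Type*} [AddCommGroup N] [Module A N] [Module B N]
  [Module k N] [IsScalarTower k A N] [IsScalarTower k B N]

/-- A complex and its base change agree on modules over the bigger ring. -/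
theorem diff_map (h : ∀ (a : A) (n : N), φ a • n = a • n) :
    (G.map φ).diff N k = G.diff N k := by
  have hd : ((G.map φ).diff N k).d = (G.diff N k).d := by
    refine LinearMap.ext fun x => funext fun i => ?_
    show ∑ g, φ (G.mat i g) • x g = ∑ g, G.mat i g • x g
    simp only [h]
  have hdeg : ((G.map φ).diff N k).deg = (G.diff N k).deg := rfl
  exact diff_ext _ _ hd hdeg

theorem chi_changeRing (h : ∀ (a : A) (n : N), φ a • n = a • n) :
    (G.map φ).chi N k = G.chi N k :=
  congrArg (fun D : Diff k (G.ι → N) => D.chi ⊤ ⊥) (G.diff_map φ h)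

theorem finiteHom_changeRing (h : ∀ (a : A) (n : N), φ a • n = a • n) :
    (G.map φ).FiniteHom N k ↔ G.FiniteHom N k := by
  have := G.diff_map φ (k := k) h
  unfold FreeCx.FiniteHom
  rw [this]
  rfl

end ChangeRing

end FreeCx

end Vale.Agent.P202
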