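import Vale.Agent.P202.Base
import Vale.Agent.P202.Koszul.Emult

/-!
# P202: null-homotopies and finiteness of homology
-/

noncomputable section

namespace Vale.Agent.P202

open Matrix IsLocalRing

namespace FreeCx

variable {A : Type*} [CommRing A] (G : FreeCx A)

section proj

variable (M : Type*) [AddCommGroup M] [Module A M]

/-- Projection onto position `j`. -/
def posProj (j : ℤ) : (G.ι → M) →ₗ[A] (G.ι → M) where
  toFun f g := if (G.pos g : ℤ) = j then f g else 0
  map_add' f f' := by ext g; by_cases h : (G.pos g : ℤ) = j <;> simp [h]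
  map_smul' c f := by ext g; by_cases h : (G.pos g : ℤ) = j <;> simp [h]

theorem posProj_apply (j : ℤ) (f : G.ι → M) (g : G.ι) :
    G.posProj M j f g = if (G.pos g : ℤ) = j then f g else 0 := rfl

theorem dA_posProj (j : ℤ) (f : G.ι → M) :
    G.dA M (G.posProj M (j + 1) f) = G.posProj M j (G.dA M f) := by
  ext h
  simp only [dA_apply, posProj_apply]
  by_cases hh : (G.pos h : ℤ) = j
  · rw [if_pos hh]
    refine Finset.sum_congr rfl fun g _ => ?_
    by_cases hm : G.mat h g = 0
    · simp [hm]
    · rw [if_pos (by have := G.mat_pos h g hm; omega)]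
  · rw [if_neg hh]
    refine Finset.sum_eq_zero fun g _ => ?_
    by_cases hm : G.mat h g = 0
    · simp [hm]
    · rw [if_neg (by have := G.mat_pos h g hm; omega), smul_zero]

end proj

/-- `z` kills the homology of `G ⊗ M`. -/
def Kills (M : Type*) [AddCommGroup M] [Module A M] (z : A) : Prop :=
  ∀ f : G.ι → M, G.dA M f = 0 → ∃ v, G.dA M v = z • f

/-- An element killing the homology of `G` gives a null-homotopy of a power. -/
theorem exists_homotopy {z : A} (hz : G.Kills A z) {L : ℕ} (hL : G.LengthLE L) :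
    ∃ s : Matrix G.ι G.ι A, G.mat * s + s * G.mat = z ^ (L + 1) • (1 : Matrix G.ι G.ι A) := by
  classical
  suffices h : ∀ i, ∃ s : Matrix G.ι G.ι A, ∀ g, G.pos g < i →
      ∀ h, (G.mat * s + s * G.mat) h g = (z ^ i • (1 : Matrix G.ι G.ι A)) h g by
    obtain ⟨s, hs⟩ := h (L + 1)
    exact ⟨s, by ext h g; exact hs g (Nat.lt_succ_of_le (hL g)) h⟩
  intro i
  induction i with
  | zero => exact ⟨0, fun g hg => absurd hg (Nat.not_lt_zero _)⟩
  | succ i ih =>
    obtain ⟨s, hs⟩ := ih
    -- the cycle attached to a basis vector in position `i`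
    let u : G.ι → G.ι → A := fun g h => (z ^ i • (1 : Matrix G.ι G.ι A)) h g - (s * G.mat) h g
    have hu : ∀ g, G.pos g = i → G.dA A (u g) = 0 := by
      intro g hg
      funext l
      rw [dA_apply]
      simp only [u, smul_eq_mul, mul_sub, Finset.sum_sub_distrib]
      have e1 : ∑ h, G.mat l h * (z ^ i • (1 : Matrix G.ι G.ι A)) h g = z ^ i * G.mat l g := by
        simp [Matrix.one_apply, mul_comm]
      have e2 : ∑ h, G.mat l h * (s * G.mat) h g = z ^ i * G.mat l g := by
        have : ∑ h, G.mat l h * (s * G.mat) h g =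
            ∑ h, ((G.mat * s + s * G.mat) l h) * G.mat h g := by
          rw [← Matrix.mul_apply, ← Matrix.mul_apply, Matrix.add_mul, Matrix.mul_assoc s,
            G.sq, Matrix.mul_zero, add_zero, Matrix.mul_assoc]
        rw [this, Finset.sum_congr rfl (g := fun h => (z ^ i • (1 : Matrix G.ι G.ι A)) l h * G.mat h g)]
        · simp [Matrix.one_apply]
        · intro h _
          by_cases hm : G.mat h g = 0
          · simp [hm]
          · rw [hs h (by have := G.mat_pos h g hm; omega) l]
      rw [e1, e2, sub_self]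
      rfl
    have hv : ∀ g, ∃ v : G.ι → A, G.pos g = i → G.dA A v = z • u g := by
      intro g
      by_cases hg : G.pos g = i
      · obtain ⟨v, hv⟩ := hz (u g) (hu g hg)
        exact ⟨v, fun _ => hv⟩
      · exact ⟨0, fun h => absurd h hg⟩
    choose v hv using hv
    refine ⟨Matrix.of fun h g => if G.pos g < i then z * s h g
      else if G.pos g = i then v g h else 0, fun g hg h => ?_⟩
    have hsd : (∑ l, (if G.pos l < i then z * s h l else
        if G.pos l = i then v l h else 0) * G.mat l g) = z * (s * G.mat) h g := by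
      rw [Matrix.mul_apply, Finset.mul_sum]
      refine Finset.sum_congr rfl fun l _ => ?_
      by_cases hm : G.mat l g = 0
      · simp [hm]
      · rw [if_pos (by have := G.mat_pos l g hm; omega), mul_assoc]
    rw [Matrix.add_apply, Matrix.mul_apply, Matrix.mul_apply]
    simp only [Matrix.of_apply]
    rw [hsd]
    rcases Nat.lt_succ_iff_lt_or_eq.1 hg with hlt | heq
    · have := hs g hlt h
      rw [Matrix.add_apply, Matrix.mul_apply, Matrix.smul_apply, smul_eq_mul] at this
      simp only [if_pos hlt, Matrix.smul_apply, smul_eq_mul, pow_succ']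
      rw [mul_assoc, ← this, mul_add, Finset.mul_sum]
      congr 1
      refine Finset.sum_congr rfl fun l _ => ?_
      ring
    · have := congrFun (hv g heq) h
      rw [dA_apply] at this
      simp only [heq, lt_irrefl, if_false, if_true]
      simp only [smul_eq_mul, Pi.smul_apply, u] at this
      rw [this]
      simp only [Matrix.smul_apply, smul_eq_mul, pow_succ']
      ring

variable {G}

/-- A power of an element killing the homology of `G` kills it on every module. -/
theorem kills_pow {z : A} (hz : G.Kills A z) {L : ℕ} (hL : G.LengthLE L) (M : Type*)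
    [AddCommGroup M] [Module A M] : G.Kills M (z ^ (L + 1)) := by
  classical
  obtain ⟨s, hs⟩ := G.exists_homotopy hz hL
  intro f hf
  refine ⟨fun h => ∑ g, s h g • f g, ?_⟩
  funext l
  have h0 : ∑ h, s l h • G.dA M f h = 0 := by simp [hf]
  simp only [dA_apply, Finset.smul_sum, smul_smul] at h0 ⊢
  rw [Finset.sum_comm] at h0 ⊢
  simp only [← Finset.sum_smul, ← Matrix.mul_apply] at h0 ⊢
  have : ∑ g, (G.mat * s) l g • f g + ∑ g, (s * G.mat) l g • f g =
      ∑ g, (z ^ (L + 1) • (1 : Matrix G.ι G.ι A)) l g • f g := by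
    rw [← Finset.sum_add_distrib, ← hs]
    exact Finset.sum_congr rfl fun g _ => by rw [Matrix.add_apply, add_smul]
  rw [h0, add_zero] at this
  rw [this, Pi.smul_apply]
  simp [Matrix.one_apply, ite_smul]

variable {k : Type*} [CommRing k] [Algebra k A] {M : Type*} [AddCommGroup M] [Module A M]
  [Module k M] [IsScalarTower k A M]

theorem posProj_of_mem_deg {j : ℤ} {f : G.ι → M} (hf : f ∈ (G.diff M k).deg j) :
    G.posProj M j f = f := by
  funext g
  rw [posProj_apply]
  split_ifs with h
  · rfl
  · exact (hf g h).symm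

theorem posProj_mem_deg (j : ℤ) (f : G.ι → M) : G.posProj M j f ∈ (G.diff M k).deg j :=
  fun g hg => by rw [posProj_apply, if_neg hg]

/-- The cycles in position `j`, as a module over the ring. -/
def cyclesA (G : FreeCx A) (M : Type*) [AddCommGroup M] [Module A M] (j : ℤ) :
    Submodule A (G.ι → M) :=
  LinearMap.ker (G.dA M) ⊓ LinearMap.range (G.posProj M j)

/-- The boundaries in position `j`, as a module over the ring. -/
def bdriesA (G : FreeCx A) (M : Type*) [AddCommGroup M] [Module A M] (j : ℤ) :
    Submodule A (G.ι → M) :=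
  (LinearMap.range (G.posProj M (j + 1))).map (G.dA M)

theorem mem_cyclesA_iff {j : ℤ} {f : G.ι → M} :
    f ∈ G.cyclesA M j ↔ f ∈ (G.diff M k).cycles ⊤ ⊥ j := by
  constructor
  · rintro ⟨h1, v, rfl⟩
    refine ⟨⟨trivial, posProj_mem_deg j v⟩, ?_⟩
    simpa [Diff.cycles, diff] using h1
  · rintro ⟨⟨-, h2⟩, h3⟩
    exact ⟨by simpa [diff] using h3, f, posProj_of_mem_deg h2⟩

theorem mem_bdriesA_iff {j : ℤ} {f : G.ι → M} :
    f ∈ G.bdriesA M j ↔ f ∈ (G.diff M k).bdries ⊤ ⊥ j := by
  simp only [Diff.bdries, bdriesA, bot_inf_eq, sup_bot_eq, Submodule.mem_map]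
  constructor
  · rintro ⟨v, ⟨w, rfl⟩, rfl⟩
    exact ⟨_, ⟨trivial, posProj_mem_deg _ w⟩, rfl⟩
  · rintro ⟨v, ⟨-, hv⟩, rfl⟩
    exact ⟨v, ⟨v, posProj_of_mem_deg hv⟩, rfl⟩

/-- An element killing homology kills each homology space. -/
theorem Kills.mem_bdries {z : A} (hz : G.Kills M z) {j : ℤ} {f : G.ι → M}
    (hf : f ∈ G.cyclesA M j) : z • f ∈ G.bdriesA M j := by
  obtain ⟨v, hv⟩ := hz f hf.1
  refine ⟨G.posProj M (j + 1) v, ⟨v, rfl⟩, ?_⟩
  obtain ⟨w, hw⟩ := hf.2
  rw [dA_posProj, hv, map_smul]
  congr 1
  funext g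
  rw [posProj_apply]
  split_ifs with h
  · rfl
  · rw [← hw, posProj_apply, if_neg h]

/-- The comparison of the homology over `A` with the homology over `k`. -/
def homEquiv (j : ℤ) :
    ((G.cyclesA M j) ⧸ (G.bdriesA M j).comap (G.cyclesA M j).subtype) ≃ₗ[k]
      (G.diff M k).H ⊤ ⊥ j :=
  (Submodule.Quotient.restrictScalarsEquiv k _).symm.trans <|
    Submodule.Quotient.equiv _ _
      { toFun := fun f => ⟨f.1, mem_cyclesA_iff.1 f.2⟩
        map_add' := fun _ _ => rfl
        map_smul' := fun _ _ => rfl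
        invFun := fun f => ⟨f.1, mem_cyclesA_iff.2 f.2⟩
        left_inv := fun _ => rfl
        right_inv := fun _ => rfl } (by
      ext f
      simp only [Submodule.mem_map, Submodule.mem_comap]
      constructor
      · rintro ⟨g, hg, rfl⟩
        exact mem_bdriesA_iff.1 hg
      · intro hf
        exact ⟨⟨f.1, mem_cyclesA_iff.2 f.2⟩, mem_bdriesA_iff.2 hf, rfl⟩)

/-- Vanishing of the homology from a unit ideal of killing elements. -/
theorem subsingleton_of_span_eq_top {B : Type*} [CommRing B] [Algebra A B] [Module B M]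
    [IsScalarTower A B M] (Z : Set A) (hZ : ∀ z ∈ Z, G.Kills A z) {L : ℕ} (hL : G.LengthLE L)
    (hspan : Ideal.span (algebraMap A B '' Z) = ⊤) (j : ℤ) :
    Subsingleton ((G.diff M k).H ⊤ ⊥ j) := by
  have hdB : ∀ (b : B) (v : G.ι → M), G.dA M (b • v) = b • G.dA M v := by
    intro b v
    funext h
    simp only [dA_apply, Pi.smul_apply, Finset.smul_sum]
    exact Finset.sum_congr rfl fun g _ => smul_comm _ _ _
  have hpB : ∀ (b : B) (v : G.ι → M), G.posProj M (j + 1) (b • v) = b • G.posProj M (j + 1) v := by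
    intro b v
    funext h
    simp only [posProj_apply, Pi.smul_apply]
    split_ifs <;> simp
  have key : ∀ f ∈ G.cyclesA M j, f ∈ G.bdriesA M j := by
    intro f hf
    let K : Ideal B :=
      { carrier := {b | b • f ∈ G.bdriesA M j}
        add_mem' := fun {a b} ha hb => by
          simp only [Set.mem_setOf_eq, add_smul] at *
          exact Submodule.add_mem _ ha hb
        zero_mem' := by simp
        smul_mem' := fun c b hb => by
          obtain ⟨-, ⟨w, rfl⟩, hw⟩ := hb
          refine ⟨c • G.posProj M (j + 1) w, ⟨c • w, hpB c w⟩, ?_⟩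
          rw [hdB, hw, smul_eq_mul, mul_smul] }
    have hK : Ideal.span ((· ^ (L + 1)) '' (algebraMap A B '' Z)) ≤ K := by
      rw [Ideal.span_le]
      rintro _ ⟨_, ⟨z, hz, rfl⟩, rfl⟩
      change (algebraMap A B z) ^ (L + 1) • f ∈ G.bdriesA M j
      rw [← map_pow, algebraMap_smul]
      exact (kills_pow (hZ z hz) hL M).mem_bdries hf
    rw [Ideal.span_pow_eq_top _ hspan (L + 1)] at hK
    simpa [K] using hK (Submodule.mem_top (x := (1 : B)))
  refine ⟨fun a b => ?_⟩
  obtain ⟨a, rfl⟩ := (homEquiv (G := G) (k := k) (M := M) j).surjective a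
  obtain ⟨b, rfl⟩ := (homEquiv (G := G) (k := k) (M := M) j).surjective b
  obtain ⟨a, rfl⟩ := Submodule.Quotient.mk_surjective _ a
  obtain ⟨b, rfl⟩ := Submodule.Quotient.mk_surjective _ b
  congr 1
  rw [Submodule.Quotient.eq]
  exact key _ (a - b).2

section finiteness

variable {k : Type*} [Field k] {A : Type*} [CommRing A] [IsNoetherianRing A] [Algebra k A]
  {G : FreeCx A} {M : Type*} [AddCommGroup M] [Module A M] [Module k M] [IsScalarTower k A M]

/-- Homology on a finite module killed by an ideal of finite colength is finite-dimensional. -/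
theorem finiteHom_of_kills [Module.Finite A M] (I : Ideal A) [Module.Finite k (A ⧸ I)]
    (hI : ∀ a ∈ I, G.Kills M a) : G.FiniteHom M k := by
  intro j
  have : IsNoetherian A M := isNoetherian_of_isNoetherianRing_of_finite A M
  let Q := (G.cyclesA M j) ⧸ (G.bdriesA M j).comap (G.cyclesA M j).subtype
  have : Module.Finite k ((⊤ : Submodule A Q).restrictScalars k) := by
    refine finite_of_annihilator (I := I) ⊤ Module.Finite.fg_top fun a ha q _ => ?_
    obtain ⟨q, rfl⟩ := Submodule.Quotient.mk_surjective _ q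
    rw [← Submodule.Quotient.mk_smul, Submodule.Quotient.mk_eq_zero]
    exact (hI a ha).mem_bdries q.2
  have : Module.Finite k Q := Module.Finite.equiv
    ((LinearEquiv.ofEq _ _ (Submodule.restrictScalars_top k A Q)).trans Submodule.topEquiv)
  exact Module.Finite.equiv (homEquiv (G := G) (k := k) (M := M) j)

/-- Finite-dimensional homology on the ring is killed by a power of the maximal ideal. -/
theorem exists_pow_kills [IsLocalRing A] (hG : G.FiniteHom A k) {L : ℕ} (hL : G.LengthLE L) :
    ∃ N, ∀ a ∈ maximalIdeal A ^ N, G.Kills A a := by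
  classical
  have hN : ∀ j : ℤ, ∃ N : ℕ, ∀ a ∈ maximalIdeal A ^ N, ∀ f ∈ G.cyclesA A j,
      a • f ∈ G.bdriesA A j := by
    intro j
    let Q := (G.cyclesA A j) ⧸ (G.bdriesA A j).comap (G.cyclesA A j).subtype
    have := hG j
    have : Module.Finite k Q := Module.Finite.equiv (homEquiv (G := G) (k := k) (M := A) j).symm
    have : IsArtinian A Q := isArtinian_of_tower k inferInstance
    obtain ⟨N, hN⟩ := IsArtinian.monotone_stabilizes
      (⟨fun n => OrderDual.toDual (maximalIdeal A ^ n • (⊤ : Submodule A Q)),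
        fun a b hab => Submodule.smul_mono_left (Ideal.pow_le_pow_right hab)⟩ :
        ℕ →o (Submodule A Q)ᵒᵈ)
    have h0 : maximalIdeal A ^ N • (⊤ : Submodule A Q) = ⊥ := by
      refine Submodule.eq_bot_of_le_smul_of_le_jacobson_bot (maximalIdeal A) _
        (IsNoetherian.noetherian _) ?_ (maximalIdeal_le_jacobson _)
      rw [← Submodule.mul_smul, ← pow_succ']
      exact (OrderDual.toDual.injective (hN (N + 1) N.le_succ)).le
    refine ⟨N, fun a ha f hf => ?_⟩
    have : a • (Submodule.Quotient.mk (⟨f, hf⟩ : G.cyclesA A j) : Q) ∈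
        maximalIdeal A ^ N • (⊤ : Submodule A Q) :=
      Submodule.smul_mem_smul ha Submodule.mem_top
    rw [h0, Submodule.mem_bot, ← Submodule.Quotient.mk_smul, Submodule.Quotient.mk_eq_zero] at this
    exact this
  choose N hN using hN
  refine ⟨(Finset.range (L + 1)).sup fun i => N i, fun a ha f hf => ?_⟩
  have hcomp : ∀ i ∈ Finset.range (L + 1),
      a • G.posProj A (i : ℤ) f ∈ LinearMap.range (G.dA A) := by
    intro i hi
    have hmem : G.posProj A (i : ℤ) f ∈ G.cyclesA A (i : ℤ) := by
      refine ⟨?_, f, rfl⟩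
      rw [SetLike.mem_coe, LinearMap.mem_ker]
      have := G.dA_posProj A ((i : ℤ) - 1) f
      rw [sub_add_cancel] at this
      rw [this, hf, map_zero]
    have ha' : a ∈ maximalIdeal A ^ N i :=
      Ideal.pow_le_pow_right (Finset.le_sup (f := fun i : ℕ => N i) hi) ha
    exact LinearMap.map_le_range (hN _ a ha' _ hmem)
  have hsum : f = ∑ i ∈ Finset.range (L + 1), G.posProj A (i : ℤ) f := by
    funext g
    rw [Finset.sum_apply]
    simp only [posProj_apply, Nat.cast_inj]
    rw [Finset.sum_ite_eq, if_pos (Finset.mem_range.2 (Nat.lt_succ_of_le (hL g)))]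
  rw [hsum, Finset.smul_sum]
  exact LinearMap.mem_range.1 (Submodule.sum_mem _ hcomp)

end finiteness

end FreeCx

end Vale.Agent.P202
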